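import Vale.Agent.P284.H730.CY.Spec
import Vale.Agent.P284.H10.CY.MaxE

/-!
# P284, theorem CY (helper448): row OY

Near a supremum the gradient and the Hessian are small.
-/

open scoped Manifold ContDiff Topology NNReal ComplexOrder
open Filter Set Metric MeasureTheory

set_option maxSynthPendingDepth 3

noncomputable section

namespace Vale.Agent.P284.H448.CY

open Vale.Agent.P272.K Vale.Agent.P272.K.LIN Vale.Agent.P272.K.N Vale.Agent.P284.H248
  Vale.Agent.P284.H894 Vale.Agent.P284.H894.G Vale.Agent.P284.H894.V Vale.Agent.P284.H409.K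
  Vale.Agent.P284.H730.CY Vale.Agent.P284.H10.CY Vale.Agent.P284.H894.W Vale.Agent.P284.H913.V
  Vale.Agent.P284.H409.A

variable {n : ℕ}

lemma sq_shift (a : Cm n) : AMP.sq a = fun z => AMP.sq (0 : Cm n) (z - a) := by
  funext z
  simp [AMP.sq]

lemma fderiv_sq (a : Cm n) :
    fderiv ℝ (AMP.sq a) = fun z => fderiv ℝ (AMP.sq (0 : Cm n)) (z - a) := by
  funext z
  rw [sq_shift a]
  exact fderiv_comp_sub _

lemma fderiv2_sq (a z : Cm n) :
    fderiv ℝ (fderiv ℝ (AMP.sq a)) z = fderiv ℝ (fderiv ℝ (AMP.sq (0 : Cm n))) (z - a) := by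
  rw [fderiv_sq a]
  exact fderiv_comp_sub _

/-- bounds for the derivatives of `|z - a|²`, uniform in `a` -/
lemma sq_bound (n : ℕ) (r : ℝ) : ∃ M : ℝ, 1 ≤ M ∧ ∀ a z : Cm n, z ∈ closedBall a r →
    ‖fderiv ℝ (AMP.sq a) z‖ ≤ M ∧ ‖fderiv ℝ (fderiv ℝ (AMP.sq a)) z‖ ≤ M := by
  have hs : ContDiff ℝ 2 (AMP.sq (0 : Cm n)) := (AMP.contDiff_sq 0).of_le (by norm_cast)
  have hs1 : ContDiff ℝ 1 (fderiv ℝ (AMP.sq (0 : Cm n))) := hs.fderiv_right (by norm_num)
  have c1 : Continuous (fderiv ℝ (AMP.sq (0 : Cm n))) := hs1.continuous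
  have c2 : Continuous (fderiv ℝ (fderiv ℝ (AMP.sq (0 : Cm n)))) :=
    (hs1.fderiv_right (m := 0) (by norm_num)).continuous
  obtain ⟨M1, h1⟩ := (isCompact_closedBall (0 : Cm n) r).exists_bound_of_continuousOn
    c1.continuousOn
  obtain ⟨M2, h2⟩ := (isCompact_closedBall (0 : Cm n) r).exists_bound_of_continuousOn
    c2.continuousOn
  refine ⟨max 1 (max M1 M2), le_max_left _ _, fun a z hz => ?_⟩
  have hz' : z - a ∈ closedBall (0 : Cm n) r := by
    rw [mem_closedBall, dist_zero_right, ← dist_eq_norm]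
    exact hz
  refine ⟨?_, ?_⟩
  · rw [fderiv_sq a]
    exact (h1 _ hz').trans ((le_max_left _ _).trans (le_max_right _ _))
  · rw [fderiv2_sq a]
    exact (h2 _ hz').trans ((le_max_right _ _).trans (le_max_right _ _))

theorem oyStmt : OYStmt := by
  intro n Γ _ C K u B hB hc hu δ hδ
  classical
  obtain ⟨a', ha'⟩ := Finite.exists_min C.r
  set r0 : ℝ := C.r a' with hr0
  have hr0p : 0 < r0 := C.r_pos a'
  have hlam := K.lam_pos
  obtain ⟨M, hM1, hM⟩ := sq_bound n r0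
  set κ : ℝ := min (δ * K.lam) (δ / M) with hκ
  have hκp : 0 < κ := lt_min (by positivity) (by positivity)
  set ε : ℝ := min δ (κ * r0 ^ 2 / 2) with hε
  have hεp : 0 < ε := lt_min hδ (by positivity)
  have hε1 : ε ≤ δ := min_le_left _ _
  have hε0 : 2 * ε / r0 ^ 2 ≤ κ := by
    rw [div_le_iff₀ (by positivity)]
    have := min_le_right δ (κ * r0 ^ 2 / 2)
    rw [← hε] at this
    linarith
  have hε2 : 2 * ε / r0 ^ 2 ≤ δ * K.lam := hε0.trans (min_le_left _ _)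
  have hε3 : 2 * ε / r0 ^ 2 * M ≤ δ := by
    have h1 := hε0.trans (min_le_right _ _)
    rwa [le_div_iff₀ (by positivity)] at h1
  set S : Set ℝ := {y | ∃ γ b, ∃ z ∈ C.W b, u γ b z = y} with hS
  have hSne : S.Nonempty := ⟨_, 1, a', C.c a', mem_ball_self (C.r_pos a'), rfl⟩
  have hSb : BddAbove S := ⟨B, by
    rintro y ⟨γ, b, z, hz, rfl⟩
    exact hB γ b z (W_V C b hz)⟩
  set s : ℝ := sSup S with hs
  have hall : ∀ γ b, ∀ z ∈ C.V b, u γ b z ≤ s := by
    intro γ b z hz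
    obtain ⟨b', h1, h2⟩ := C.cover b z (V_sub C b hz)
    rw [hc γ b b' z h1 hz (W_V C b' h2)]
    exact le_csSup hSb ⟨_, b', _, h2, rfl⟩
  obtain ⟨y, ⟨γ, a, z0, hz0, rfl⟩, hy⟩ := exists_lt_of_lt_csSup hSne (show s - ε < sSup S by
    rw [← hs]; linarith)
  -- the compact set
  set D : Set (Cm n) := {z | AMP.sq z0 z ≤ r0 ^ 2} with hD
  have hDb : ∀ z ∈ D, z ∈ closedBall z0 r0 := fun z hz => norm_le_of_sq hr0p.le hz
  have hD2 : ∀ z ∈ D, z ∈ ball (C.c a) (2 * C.r a) := by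
    intro z hz
    have h1 := hDb z hz
    rw [mem_closedBall] at h1
    have h2 : dist z0 (C.c a) < C.r a := hz0
    have h3 := ha' a
    have h4 := dist_triangle z z0 (C.c a)
    rw [mem_ball]
    linarith
  have hDV : D ⊆ C.V a := by
    intro z hz
    exact ball_subset_ball (by linarith [C.r_pos a]) (hD2 z hz)
  have hDc : IsCompact D := by
    refine (isCompact_closedBall z0 r0).of_isClosed_subset ?_ hDb
    exact isClosed_le (AMP.contDiff_sq z0).continuous continuous_const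
  have hq : ∀ z, ContDiffAt ℝ 2 (AMP.sq z0) z := fun z =>
    (AMP.contDiff_sq z0).contDiffAt.of_le (by norm_cast)
  set c : ℝ := 2 * ε / r0 ^ 2 with hcdef
  have hcp : 0 < c := by positivity
  set f : Cm n → ℝ := fun z => u γ a z - (c * AMP.sq z0 z) with hf
  have hcq : ∀ z, ContDiffAt ℝ 2 (fun z => c * AMP.sq z0 z) z := fun z =>
    contDiffAt_const.mul (hq z)
  have hfs : ∀ z ∈ C.V a, ContDiffAt ℝ 2 f z := fun z hz => (hu γ a z hz).sub (hcq z)
  have hfc : ContinuousOn f D := fun z hz => (hfs z (hDV hz)).continuousAt.continuousWithinAt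
  have hsq0 : AMP.sq z0 z0 = 0 := by simp [AMP.sq]
  have hz0D : z0 ∈ D := by
    show AMP.sq z0 z0 ≤ r0 ^ 2
    rw [hsq0]
    positivity
  obtain ⟨z1, hz1, hmax⟩ := hDc.exists_isMaxOn ⟨z0, hz0D⟩ hfc
  have hf0 : s - ε < f z0 := by
    simp only [hf, hsq0, mul_zero, sub_zero]
    linarith
  have hf1 : s - ε < f z1 := hf0.trans_le (hmax hz0D)
  have hcr : c * r0 ^ 2 = 2 * ε := by
    rw [hcdef]
    field_simp
  have hlt : AMP.sq z0 z1 < r0 ^ 2 := by
    rcases lt_or_eq_of_le (show AMP.sq z0 z1 ≤ r0 ^ 2 from hz1) with h | h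
    · exact h
    · exfalso
      have h1 : f z1 = u γ a z1 - 2 * ε := by
        simp only [hf, h]
        linarith
      have h2 := hall γ a z1 (hDV hz1)
      linarith
  have hloc : IsLocalMax f z1 := by
    have ho : IsOpen {z : Cm n | AMP.sq z0 z < r0 ^ 2} :=
      isOpen_lt (AMP.contDiff_sq z0).continuous continuous_const
    filter_upwards [ho.mem_nhds hlt] with z hz
    exact hmax (show z ∈ D from le_of_lt hz)
  have hz1V := hDV hz1
  have hu1 := hu γ a z1 hz1V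
  have hneg := N.neg_cHess_posSemidef (hfs z1 hz1V) hloc
  have hH : cHess f z1 = cHess (u γ a) z1 - (c : ℂ) • 1 := by
    rw [hf, cHess_sub' hu1 (hcq z1), C2.cHess_const_mul _ (hq z1), AMP.cHess_sq]
  obtain ⟨hM1', hM2'⟩ := hM z0 z1 (hDb z1 hz1)
  have hcsq : (fun z => c * AMP.sq z0 z) = c • AMP.sq z0 := rfl
  have e1 : fderiv ℝ (fun z => c * AMP.sq z0 z) = c • fderiv ℝ (AMP.sq z0) := by
    rw [hcsq]
    exact fderiv_const_smul_field c
  have e2 : fderiv ℝ (fderiv ℝ (fun z => c * AMP.sq z0 z)) z1 =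
      c • fderiv ℝ (fderiv ℝ (AMP.sq z0)) z1 := by
    rw [e1, fderiv_const_smul_field c]
    rfl
  refine ⟨γ, a, z1, hD2 z1 hz1, fun γ' b z' hz' => ?_, ?_, fun x => ?_, ?_⟩
  · have h1 := hall γ' b z' hz'
    have h2 : f z1 ≤ u γ a z1 := by
      have h3 : 0 ≤ c * AMP.sq z0 z1 := mul_nonneg (by positivity) (AMP.normSq_sum_nonneg470 _ _)
      simp only [hf]
      linarith
    linarith
  · have h0 : fderiv ℝ f z1 = 0 := hloc.fderiv_eq_zero
    have h1 : fderiv ℝ f z1 = fderiv ℝ (u γ a) z1 - c • fderiv ℝ (AMP.sq z0) z1 := by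
      rw [hf, fderiv_fun_sub (hu1.differentiableAt (by simp)) ((hcq z1).differentiableAt (by simp)),
        e1]
      rfl
    have h2 : fderiv ℝ (u γ a) z1 = c • fderiv ℝ (AMP.sq z0) z1 := by
      rw [h0] at h1
      exact (sub_eq_zero.1 h1.symm)
    rw [h2, norm_smul, Real.norm_eq_abs, abs_of_pos hcp]
    calc c * ‖fderiv ℝ (AMP.sq z0) z1‖ ≤ c * M := by gcongr
      _ ≤ δ := hε3
  · have h0 : fderiv ℝ (fderiv ℝ f) z1 x x ≤ 0 :=
      N.second_deriv_nonpos (diffble1 (hfs z1 hz1V)) (diffble2 (hfs z1 hz1V)) hloc x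
    have h1 : fderiv ℝ (fderiv ℝ f) z1 = fderiv ℝ (fderiv ℝ (u γ a)) z1 -
        c • fderiv ℝ (fderiv ℝ (AMP.sq z0)) z1 := by
      rw [hf, fderiv2_sub hu1 (hcq z1), e2]
    have h2 : fderiv ℝ (fderiv ℝ (u γ a)) z1 x x ≤
        c * fderiv ℝ (fderiv ℝ (AMP.sq z0)) z1 x x := by
      rw [h1] at h0
      simp only [sub_apply, smul_apply, smul_eq_mul] at h0
      linarith
    have h3 : fderiv ℝ (fderiv ℝ (AMP.sq z0)) z1 x x ≤ M * ‖x‖ ^ 2 := by
      have h4 := (fderiv ℝ (fderiv ℝ (AMP.sq z0)) z1).le_opNorm₂ x x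
      have h5 := (le_abs_self _).trans ((Real.norm_eq_abs _).symm.le.trans h4)
      calc fderiv ℝ (fderiv ℝ (AMP.sq z0)) z1 x x
          ≤ ‖fderiv ℝ (fderiv ℝ (AMP.sq z0)) z1‖ * ‖x‖ * ‖x‖ := h5
        _ ≤ M * ‖x‖ * ‖x‖ := by gcongr
        _ = M * ‖x‖ ^ 2 := by ring
    calc fderiv ℝ (fderiv ℝ (u γ a)) z1 x x ≤ c * fderiv ℝ (fderiv ℝ (AMP.sq z0)) z1 x x := h2
      _ ≤ c * (M * ‖x‖ ^ 2) := by gcongr
      _ = (c * M) * ‖x‖ ^ 2 := by ring
      _ ≤ δ * ‖x‖ ^ 2 := by gcongr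
  · have hpos := (K.ku a).pos z1 (V_sub C a hz1V)
    have h1 := sub_one_psd hpos.isHermitian (K.low a z1 (V_sub C a hz1V))
    have h2 : ((δ : ℂ) • K.w a z1 - cHess (u γ a) z1) =
        (δ : ℂ) • (K.w a z1 - (K.lam : ℂ) • 1) +
          (((δ * K.lam - c : ℝ) : ℂ) • (1 : Matrix (Fin n) (Fin n) ℂ) + -cHess f z1) := by
      rw [hH, smul_sub, smul_smul]
      push_cast
      module
    rw [h2]
    exact (h1.smul (by exact_mod_cast hδ.le)).add
      (((Matrix.PosSemidef.one).smul (by exact_mod_cast sub_nonneg.2 hε2)).add hneg)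

end Vale.Agent.P284.H448.CY
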